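import Vale.Agent.P181.H385.Lhs2

set_option autoImplicit false

open scoped TensorProduct

namespace Vale.Agent.P181.H385

open Vale.Agent.P181 Vale.Agent.P181.H280 Vale.Agent.P181.FR Vale.Agent.P181.T4 MvPolynomial

variable {a b : ℕ}

/-- The letters. -/
noncomputable def xs (a : ℕ) (i : Fin a) : MvPolynomial (Fin a) ℂ := X (Fin.castLE le_rfl i)

/-- The form contracted twice, at powers of linear forms. -/
lemma altC_altC (l : (Fin a → Fin (b + 2) → (Fin a → ℂ)) →₀ ℂ)
    (z : Fin a → MvPolynomial (Fin a) ℂ) (p : Fin a → Fin a → ℂ)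
    (hz : ∀ i, evL a (z i) = fun v => dotF (p i) v) :
    (altC (xs a) (altC (xs a) (formOf l))) (fun i => z i ^ b) = ctr' a b (elOf l) p := by
  rw [altC_apply, ctr'_apply]
  apply Finset.sum_congr rfl
  intro σ _
  rw [altC_apply]
  congr 1
  apply Finset.sum_congr rfl
  intro τ _
  congr 1
  have h := formOf_lin l (fun i => Function.update (Function.update (fun _ => z i) 0
    (xs a (σ i))) 1 (xs a (τ i))) (fun i => arr b (p i) (Pi.single (σ i) 1) (Pi.single (τ i) 1))
    (by
      intro i j
      have hx : ∀ k : Fin a, evL a (xs a k) = fun v => dotF (Pi.single k 1) v := by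
        intro k
        rw [xs, evL_X]
        funext v
        rw [dotF_apply, single_dotProduct, one_mul]
        rfl
      unfold arr
      by_cases h1 : j = 1
      · subst h1
        rw [Function.update_self, Function.update_self, hx]
      · rw [Function.update_of_ne h1, Function.update_of_ne h1]
        by_cases h0 : j = 0
        · subst h0
          rw [Function.update_self, Function.update_self, hx]
        · rw [Function.update_of_ne h0, Function.update_of_ne h0, hz])
  rw [TT, ← h]
  congr 1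
  funext i
  rw [Fin.prod_univ_succ, Fin.prod_univ_succ]
  have e0 : Function.update (Function.update (fun _ : Fin (b + 2) => z i) 0
      (xs a (σ i))) 1 (xs a (τ i)) 0 = xs a (σ i) := by
    rw [Function.update_of_ne zero_ne_one', Function.update_self]
  have e1 : Function.update (Function.update (fun _ : Fin (b + 2) => z i) 0
      (xs a (σ i))) 1 (xs a (τ i)) (Fin.succ 0) = xs a (τ i) := by
    rw [Fin.succ_zero_eq_one, Function.update_self]
  have e2 : ∀ j : Fin b, Function.update (Function.update (fun _ : Fin (b + 2) => z i) 0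
      (xs a (σ i))) 1 (xs a (τ i)) j.succ.succ = z i := by
    intro j
    rw [Function.update_of_ne, Function.update_of_ne (Fin.succ_ne_zero _)]
    intro h
    have := congrArg Fin.val h
    simp at this
  rw [e0, e1, Finset.prod_congr rfl (fun j _ => e2 j), Finset.prod_const, Finset.card_univ,
    Fintype.card_fin]
  ring

lemma hDx : ∀ m k : Fin a, (pderiv (Fin.castLE (le_refl a) m)) (xs a k) =
    if k = m then (1 : MvPolynomial (Fin a) ℂ) else 0 := by
  intro m k
  by_cases hkm : k = m
  · rw [hkm, if_pos rfl, xs]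
    exact pderiv_X_self _
  · rw [if_neg hkm, xs]
    exact pderiv_X_of_ne (fun hh => hkm (Fin.castLE_injective (le_refl a) hh))

lemma ctr_inj {lam : Fin a → ℕ} (hlam : ∀ i, 2 ≤ lam i)
    (x : Sym[ℂ]^a (Sym[ℂ]^(b + 2) (Fin a → ℂ))) (hx : x ∈ hwSpace lam (plethAct a (b + 2) a))
    (h0 : ctr' a b x = 0) : x = 0 := by
  obtain ⟨l, rfl⟩ := exists_elOf x
  apply elOf_eq_zero
  have hF := hwForm_formOf (le_refl a) lam l hx
  have hF1 := hwForm_altC (x := xs a) (D := fun i => pderiv (Fin.castLE (le_refl a) i))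
    (S := fun b => linS a ^ b) (b := b + 1) hDx (fun b k P hP => mul_mem_linS _ _ hP) hF
  have hs0 : IsSgn 0 (formOf l) := IsSymm.isSgn (formOf_symm l)
  have hs1 := hs0.altC (xs a)
  have hA : ∀ P : Fin a → MvPolynomial (Fin a) ℂ, (∀ i, P i ∈ linS a ^ b) →
      (altC (xs a) (altC (xs a) (formOf l))) P = 0 := by
    intro P hP
    apply multilinear_zero_of_span (altC (xs a) (altC (xs a) (formOf l)))
      ((fun z => z ^ b) '' (linS a : Set (MvPolynomial (Fin a) ℂ))) ?_ P
      (fun i => pow_le_span_pow _ _ (hP i))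
    intro w hw
    choose z hz hzw using hw
    choose ξ hξ using fun i => exists_dual (hz i)
    choose p hp using fun i => exists_dotF (ξ i)
    have h1 := altC_altC l z p (fun i => by rw [hξ i, ← hp i])
    have h2 : w = fun i => z i ^ b := funext fun i => (hzw i).symm
    rw [h2, h1, h0]
    rfl
  have hB : ∀ P : Fin a → MvPolynomial (Fin a) ℂ, (∀ i, P i ∈ linS a ^ (b + 1)) →
      (altC (xs a) (formOf l)) P = 0 := by
    refine capelli (x := xs a) (D := fun i => pderiv (Fin.castLE (le_refl a) i))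
      (S := fun b => linS a ^ b) (b := b) hDx (fun b k P hP => mul_mem_linS _ _ hP)
      (fun b m P hP => pderiv_mem_linS _ _ hP) hF1 hs1 ?_ hA
    intro m
    obtain ⟨d, hd⟩ : ∃ d, lam (Fin.castLE (le_refl a) m) = d + 2 :=
      ⟨_, (Nat.sub_add_cancel (hlam _)).symm⟩
    simp only [hd]
    have h5 : ((d + 2 : ℕ) : ℂ) - 1 + ((a - 1 - (m : ℕ) : ℕ) : ℂ) =
        ((d + 1 + (a - 1 - (m : ℕ)) : ℕ) : ℂ) := by
      push_cast
      ring
    rw [h5, Nat.cast_ne_zero]
    omega
  refine capelli (x := xs a) (D := fun i => pderiv (Fin.castLE (le_refl a) i))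
    (S := fun b => linS a ^ b) (b := b + 1) hDx (fun b k P hP => mul_mem_linS _ _ hP)
    (fun b m P hP => pderiv_mem_linS _ _ hP) hF hs0 ?_ hB
  intro m
  obtain ⟨d, hd⟩ : ∃ d, lam (Fin.castLE (le_refl a) m) = d + 2 :=
    ⟨_, (Nat.sub_add_cancel (hlam _)).symm⟩
  simp only [hd]
  have h5 : ((d + 2 : ℕ) : ℂ) + ((a - 1 - (m : ℕ) : ℕ) : ℂ) =
      ((d + 2 + (a - 1 - (m : ℕ)) : ℕ) : ℂ) := by
    push_cast
    ring
  rw [h5, Nat.cast_ne_zero]
  omega

/-- **(LhsStep)** -/
theorem lhsStep : LhsStep := by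
  intro a b lam _ hlam
  have hle : HWSS a a b (fun i => lam i - 2) ≤ HWS a a b (fun i => lam i - 2) := fun _ h => h.1
  have : Module.Finite ℂ (HWSS a a b (fun i => lam i - 2)) := Submodule.finiteDimensional_of_le hle
  rw [plethMult_eq (b := a) (a := b) (m := a) (lam := fun i => lam i - 2)]
  refine finrank_le_of_inj' (ctr a b) (hwSpace lam (plethAct a (b + 2) a))
    (HWSS a a b (fun i => lam i - 2)) ?_ ?_
  · intro x hx
    exact ⟨⟨ctr_mem x, ctr_hwf hlam hx⟩, fun ρ p => ctr'_perm x ρ p⟩
  · intro x hx h0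
    exact ctr_inj hlam x hx h0

end Vale.Agent.P181.H385
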