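import Vale.Agent.P181.H385.Rect
import Vale.Agent.P181.H530.Pad
import Vale.Agent.P181.H530.Zero

set_option autoImplicit false

/-!
# P181: the translation principle

`F(a, b, lam)` implies `F(a, b + c, lam + c^a)` for every even `c` such that forms of degree `a` in
`a` variables have an invariant of degree `c`.
-/

namespace Vale.Agent.P181.H385

open Vale.Agent.P181 Vale.Agent.P181.H280

theorem lhs_iter (a b K : ℕ) (ha : 1 ≤ a) (mu : Fin a → ℕ) :
    plethMult a (b + 2 * K) a (fun i => mu i + 2 * K) ≤ plethMult a b a mu := by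
  induction K with
  | zero => simp
  | succ K ih =>
    refine le_trans ?_ ih
    have h := lhsStep a (b + 2 * K) (fun i => mu i + 2 * (K + 1)) ha (fun i => by omega)
    have e : (fun i => mu i + 2 * (K + 1) - 2) = fun i => mu i + 2 * K := by
      funext i
      omega
    rw [e] at h
    exact h

/-- The translation principle, `dim V = a`. -/
theorem translate (a b c : ℕ) (lam : Fin a → ℕ) (ha : 1 ≤ a) (hc : Even c)
    (hinv : 1 ≤ plethMult c a a (fun _ => c))
    (h : plethMult a b a lam ≤ plethMult b a a lam) :
    plethMult a (b + c) a (fun i => lam i + c) ≤ plethMult (b + c) a a (fun i => lam i + c) := by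
  obtain ⟨K, rfl⟩ := hc
  rw [← two_mul]
  rw [← two_mul] at hinv
  exact (lhs_iter a b K ha lam).trans (h.trans (H248.rhsMul a a b (2 * K) lam _ hinv))

/-- The translation principle, `dim V ≥ a`. -/
theorem colAdd (a b c n : ℕ) (lam : Fin n → ℕ) (ha : 1 ≤ a) (han : a ≤ n) (hc : Even c)
    (hinv : 1 ≤ plethMult c a a (fun _ => c))
    (h : plethMult a b n lam ≤ plethMult b a n lam) :
    plethMult a (b + c) n (fun i => lam i + if (i : ℕ) < a then c else 0) ≤
      plethMult (b + c) a n (fun i => lam i + if (i : ℕ) < a then c else 0) := by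
  by_cases h0 : plethMult a (b + c) n (fun i => lam i + if (i : ℕ) < a then c else 0) = 0
  · rw [h0]
    exact Nat.zero_le _
  · obtain ⟨-, -, hz⟩ := H530.zero_stmt a (b + c) n _ h0
    obtain ⟨k, rfl⟩ := Nat.exists_eq_add_of_le han
    have hz' : ∀ i : Fin (a + k), ¬ (i : ℕ) < a → lam i = 0 := by
      intro i hi
      have := hz i (by omega)
      rw [if_neg hi, add_zero] at this
      exact this
    set nu : Fin a → ℕ := fun i => lam (Fin.castAdd k i) with hnu
    have h1 : lam = fun i : Fin (a + k) => if h : (i : ℕ) < a then nu ⟨i, h⟩ else 0 := by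
      funext i
      by_cases hi : (i : ℕ) < a
      · rw [dif_pos hi, hnu]
        congr 1
      · rw [dif_neg hi]
        exact hz' i hi
    have h2 : (fun i : Fin (a + k) => lam i + if (i : ℕ) < a then c else 0) =
        fun i : Fin (a + k) => if h : (i : ℕ) < a then (fun i => nu i + c) ⟨i, h⟩ else 0 := by
      funext i
      by_cases hi : (i : ℕ) < a
      · rw [if_pos hi, dif_pos hi]
        rw [hnu]
        congr 1
      · rw [if_neg hi, dif_neg hi, add_zero]
        exact hz' i hi
    rw [h2, H530.pad_stmt a (b + c) a k (fun i => nu i + c),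
      H530.pad_stmt (b + c) a a k (fun i => nu i + c)]
    rw [h1, H530.pad_stmt a b a k nu, H530.pad_stmt b a a k nu] at h
    exact translate a b c nu ha hc hinv h

end Vale.Agent.P181.H385
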