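import Vale.Agent.P181.H280.Final

set_option autoImplicit false

/-!
# P181, tall shapes for all `b >= 6a`: literals

`F(a,b,lam)` follows from `F(a,b-c,lam-c)` for every even `c` which is the degree of a nonzero
`SL_a`-invariant of forms of degree `a` in `a` variables and every `lam` with `lam_a >= c`.
-/

namespace Vale.Agent.P181.H385

open Vale.Agent.P181 Vale.Agent.P181.H280

/-- Two columns of full length are removed on the side `Sym^a(Sym^b)`. -/
def LhsStep : Prop := ∀ (a b : ℕ) (lam : Fin a → ℕ), 1 ≤ a → (∀ i, 2 ≤ lam i) →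
  plethMult a (b + 2) a lam ≤ plethMult a b a (fun i => lam i - 2)

/-- Multiplication by a highest weight vector in the symmetric algebra of `Sym^a ℂ^n`. -/
def RhsMul : Prop := ∀ (n a b k : ℕ) (mu nu : Fin n → ℕ), 1 ≤ plethMult k a n nu →
  plethMult b a n mu ≤ plethMult (b + k) a n (fun i => mu i + nu i)

/-- Invariants of degree `2K` of forms of even degree `a = 2h` in `a` variables, `h ≤ K`. -/
def InvE : Prop := ∀ h K : ℕ, 1 ≤ h → h ≤ K → 1 ≤ plethMult (2 * K) (2 * h) (2 * h) (fun _ => 2 * K)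

/-- Invariants of degree `2K` of forms of odd degree `a = 2h+1` in `a` variables, `K > h` even. -/
def InvO : Prop := ∀ h K : ℕ, 1 ≤ h → h < K → Even K →
  1 ≤ plethMult (2 * K) (2 * h + 1) (2 * h + 1) (fun _ => 2 * K)

/-- The theorem. -/
def TallAll : Prop := ∀ a b n : ℕ, 2 ≤ a → a ≤ n → 6 * a ≤ b → (Odd a ∨ Even b) →
  ∀ lam : Fin n → ℕ, (∀ i : Fin n, (i : ℕ) < a → 5 * a + 2 * (b / a) ≤ lam i) →
    plethMult a b n lam ≤ plethMult b a n lam

end Vale.Agent.P181.H385
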