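import Vale.Agent.P181.H385.Defs
import Vale.Agent.P181.H411.Seam3

set_option autoImplicit false

open scoped TensorProduct

namespace Vale.Agent.P181.H385

open Vale.Agent.P181 Vale.Agent.P181.H280 Vale.Agent.P181.FR Vale.Agent.P181.T4 MvPolynomial

variable {a b : ℕ}

/-! ### Functionals with one variable entry -/

lemma dotF_add' {m : ℕ} (p q : Fin m → ℂ) : dotF (p + q) = dotF p + dotF q := by
  apply LinearMap.ext
  intro v
  rw [LinearMap.add_apply, dotF_apply, dotF_apply, dotF_apply, add_dotProduct]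

lemma dotF_smul' {m : ℕ} (c : ℂ) (p : Fin m → ℂ) : dotF (c • p) = c • dotF p := by
  apply LinearMap.ext
  intro v
  rw [LinearMap.smul_apply, dotF_apply, dotF_apply, smul_dotProduct]

/-- `symEval` of the array `r` with entry number `k` replaced by `v`. -/
noncomputable def Lk {m B : ℕ} (k : Fin B) (r : Fin B → Module.Dual ℂ (Fin m → ℂ)) :
    (Fin m → ℂ) →ₗ[ℂ] Module.Dual ℂ (Sym[ℂ]^B (Fin m → ℂ)) where
  toFun v := symEval (Function.update r k (dotF v))
  map_add' v w := by
    apply LinearMap.ext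
    intro y
    rw [LinearMap.add_apply, dotF_add']
    exact (H54.symEvalM y).map_update_add r k (dotF v) (dotF w)
  map_smul' c v := by
    apply LinearMap.ext
    intro y
    rw [LinearMap.smul_apply, dotF_smul', RingHom.id_apply]
    exact (H54.symEvalM y).map_update_smul r k c (dotF v)

lemma Lk_apply {m B : ℕ} (k : Fin B) (r : Fin B → Module.Dual ℂ (Fin m → ℂ)) (v : Fin m → ℂ) :
    Lk k r v = symEval (Function.update r k (dotF v)) := rfl

/-- The multilinear map of the variable entries. -/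
noncomputable def NM {B : ℕ} (k : Fin B) (r : Fin a → Fin B → Module.Dual ℂ (Fin a → ℂ))
    (x : Sym[ℂ]^a (Sym[ℂ]^B (Fin a → ℂ))) :
    MultilinearMap ℂ (fun _ : Fin a => (Fin a → ℂ)) ℂ :=
  (H54.symEvalM x).compLinearMap (fun i => Lk k (r i))

lemma NM_apply {B : ℕ} (k : Fin B) (r : Fin a → Fin B → Module.Dual ℂ (Fin a → ℂ))
    (x : Sym[ℂ]^a (Sym[ℂ]^B (Fin a → ℂ))) (u : Fin a → Fin a → ℂ) :
    NM k r x u = symEval (fun i => symEval (Function.update (r i) k (dotF (u i)))) x := rfl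

/-- Alternating sums are multiples of the determinant. -/
lemma alt_det (N : MultilinearMap ℂ (fun _ : Fin a => (Fin a → ℂ)) ℂ)
    (g : Fin a → Fin a → ℂ) :
    ∑ σ : Equiv.Perm (Fin a), ((Equiv.Perm.sign σ : ℤ) : ℂ) * N (fun i => g (σ i)) =
      (Matrix.of g).det * ∑ σ : Equiv.Perm (Fin a), ((Equiv.Perm.sign σ : ℤ) : ℂ) *
        N (fun i => Pi.single (σ i) 1) := by
  have h : ∀ v : Fin a → Fin a → ℂ, MultilinearMap.alternatization N v =
      ∑ σ : Equiv.Perm (Fin a), ((Equiv.Perm.sign σ : ℤ) : ℂ) * N (fun i => v (σ i)) := by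
    intro v
    rw [MultilinearMap.alternatization_apply]
    apply Finset.sum_congr rfl
    intro σ _
    rw [MultilinearMap.domDomCongr_apply, Units.smul_def, zsmul_eq_mul]
  have h1 := AlternatingMap.eq_smul_basis_det (Pi.basisFun ℂ (Fin a))
    (MultilinearMap.alternatization N)
  have h2 : MultilinearMap.alternatization N g =
      MultilinearMap.alternatization N (Pi.basisFun ℂ (Fin a)) * (Pi.basisFun ℂ (Fin a)).det g := by
    conv_lhs => rw [h1]
    rfl
  rw [h g, h, Pi.basisFun_det_apply] at h2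
  rw [h2, mul_comm]
  congr 1
  apply Finset.sum_congr rfl
  intro σ _
  congr 2
  funext i
  rw [Pi.basisFun_apply]

/-- The array with two special entries. -/
noncomputable def arr {m : ℕ} (b : ℕ) (p u w : Fin m → ℂ) :
    Fin (b + 2) → Module.Dual ℂ (Fin m → ℂ) :=
  Function.update (Function.update (fun _ => dotF p) 0 (dotF u)) 1 (dotF w)

lemma arr_comp {m : ℕ} (p u w : Fin m → ℂ) (g : Matrix (Fin m) (Fin m) ℂ) :
    (fun j => arr b p u w j ∘ₗ Matrix.toLin' g) =
      arr b (Matrix.vecMul p g) (Matrix.vecMul u g) (Matrix.vecMul w g) := by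
  funext j
  unfold arr
  by_cases h1 : j = 1
  · subst h1
    rw [Function.update_self, Function.update_self, dotF_comp]
  · rw [Function.update_of_ne h1, Function.update_of_ne h1]
    by_cases h0 : j = 0
    · subst h0
      rw [Function.update_self, Function.update_self, dotF_comp]
    · rw [Function.update_of_ne h0, Function.update_of_ne h0, dotF_comp]

/-- Value of `x` at an array of points with two special entries. -/
noncomputable def TT (x : Sym[ℂ]^a (Sym[ℂ]^(b + 2) (Fin a → ℂ))) (p u w : Fin a → Fin a → ℂ) : ℂ :=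
  symEval (fun i => symEval (arr b (p i) (u i) (w i))) x

lemma TT_act (x : Sym[ℂ]^a (Sym[ℂ]^(b + 2) (Fin a → ℂ))) (p u w : Fin a → Fin a → ℂ)
    (g : Matrix (Fin a) (Fin a) ℂ) :
    TT (symMap a (symMap (b + 2) (Matrix.toLin' g)) x) p u w =
      TT x (fun i => Matrix.vecMul (p i) g) (fun i => Matrix.vecMul (u i) g)
        (fun i => Matrix.vecMul (w i) g) := by
  unfold TT
  rw [symEval_act]
  simp only [arr_comp]

lemma zero_ne_one' : (0 : Fin (b + 2)) ≠ 1 := by
  intro h
  have := congrArg Fin.val h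
  simp at this

lemma TT_u (x : Sym[ℂ]^a (Sym[ℂ]^(b + 2) (Fin a → ℂ))) (p w : Fin a → Fin a → ℂ)
    (g : Fin a → Fin a → ℂ) :
    ∑ σ : Equiv.Perm (Fin a), ((Equiv.Perm.sign σ : ℤ) : ℂ) * TT x p (fun i => g (σ i)) w =
      (Matrix.of g).det * ∑ σ : Equiv.Perm (Fin a), ((Equiv.Perm.sign σ : ℤ) : ℂ) *
        TT x p (fun i => Pi.single (σ i) 1) w := by
  have h : ∀ u : Fin a → Fin a → ℂ, TT x p u w =
      NM 0 (fun i => Function.update (fun _ => dotF (p i)) 1 (dotF (w i))) x u := by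
    intro u
    rw [NM_apply]
    unfold TT arr
    congr 2
    funext i
    rw [Function.update_comm zero_ne_one']
  simp only [h]
  exact alt_det _ g

lemma TT_w (x : Sym[ℂ]^a (Sym[ℂ]^(b + 2) (Fin a → ℂ))) (p u : Fin a → Fin a → ℂ)
    (g : Fin a → Fin a → ℂ) :
    ∑ τ : Equiv.Perm (Fin a), ((Equiv.Perm.sign τ : ℤ) : ℂ) * TT x p u (fun i => g (τ i)) =
      (Matrix.of g).det * ∑ τ : Equiv.Perm (Fin a), ((Equiv.Perm.sign τ : ℤ) : ℂ) *
        TT x p u (fun i => Pi.single (τ i) 1) := by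
  have h : ∀ w : Fin a → Fin a → ℂ, TT x p u w =
      NM 1 (fun i => Function.update (fun _ => dotF (p i)) 0 (dotF (u i))) x w := by
    intro w
    rfl
  simp only [h]
  exact alt_det _ g

/-- The contraction with two determinants, as a function of `a` points. -/
noncomputable def ctr' (a b : ℕ) : (Sym[ℂ]^a (Sym[ℂ]^(b + 2) (Fin a → ℂ))) →ₗ[ℂ] Fn a a :=
  LinearMap.pi fun p => ∑ σ : Equiv.Perm (Fin a), ((Equiv.Perm.sign σ : ℤ) : ℂ) •
    ∑ τ : Equiv.Perm (Fin a), ((Equiv.Perm.sign τ : ℤ) : ℂ) •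
      symEval (fun i => symEval (arr b (p i) (Pi.single (σ i) 1) (Pi.single (τ i) 1)))

/-- The same on `Pleth`. -/
noncomputable def ctr (a b : ℕ) : Pleth a (b + 2) a →ₗ[ℂ] Fn a a := ctr' a b

lemma ctr'_apply (x : Sym[ℂ]^a (Sym[ℂ]^(b + 2) (Fin a → ℂ))) (p : Fin a → Fin a → ℂ) :
    ctr' a b x p = ∑ σ : Equiv.Perm (Fin a), ((Equiv.Perm.sign σ : ℤ) : ℂ) *
    ∑ τ : Equiv.Perm (Fin a), ((Equiv.Perm.sign τ : ℤ) : ℂ) *
      TT x p (fun i => Pi.single (σ i) 1) (fun i => Pi.single (τ i) 1) := by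
  simp only [ctr', LinearMap.pi_apply, LinearMap.sum_apply, LinearMap.smul_apply, smul_eq_mul]
  rfl

end Vale.Agent.P181.H385
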