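import Vale.Agent.P181.H385.Lhs

set_option autoImplicit false

open scoped TensorProduct

namespace Vale.Agent.P181.H385

open Vale.Agent.P181 Vale.Agent.P181.H280 Vale.Agent.P181.FR Vale.Agent.P181.T4 MvPolynomial

variable {a b : ℕ}

lemma arr_zero {m : ℕ} (p u w : Fin m → ℂ) : arr b p u w 0 = dotF u := by
  unfold arr
  rw [Function.update_of_ne zero_ne_one', Function.update_self]

lemma arr_one {m : ℕ} (p u w : Fin m → ℂ) : arr b p u w (Fin.succ 0) = dotF w := by
  unfold arr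
  rw [Fin.succ_zero_eq_one, Function.update_self]

lemma arr_succ {m : ℕ} (p u w : Fin m → ℂ) (j : Fin b) : arr b p u w j.succ.succ = dotF p := by
  unfold arr
  rw [Function.update_of_ne, Function.update_of_ne (Fin.succ_ne_zero _)]
  intro h
  have := congrArg Fin.val h
  simp at this

lemma prod_arr {m : ℕ} (p u w : Fin m → ℂ) (y : Fin (b + 2) → Fin m → ℂ) :
    ∏ j, arr b p u w j (y j) = dotF u (y 0) * (dotF w (y (Fin.succ 0)) *
      ∏ j : Fin b, dotF p (y j.succ.succ)) := by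
  rw [Fin.prod_univ_succ, Fin.prod_univ_succ, arr_zero, arr_one]
  simp only [arr_succ]

lemma ctr_mem (x : Pleth a (b + 2) a) : ctr a b x ∈ MP a a b := by
  let f : Sym[ℂ]^a (Sym[ℂ]^(b + 2) (Fin a → ℂ)) →ₗ[ℂ] Fn a a ⧸ MP a a b :=
    (Submodule.mkQ (MP a a b)) ∘ₗ (ctr' a b)
  have hf : f = 0 := by
    apply pure_hom_ext
    intro v
    change Submodule.mkQ (MP a a b) (ctr' a b _) = 0
    rw [Submodule.mkQ_apply, Submodule.Quotient.mk_eq_zero]
    have h1 : ctr' a b (SymmetricPower.tprod ℂ (fun i => SymmetricPower.tprod ℂ (v i))) =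
        ∑ σ : Equiv.Perm (Fin a), ((Equiv.Perm.sign σ : ℤ) : ℂ) •
        ∑ τ : Equiv.Perm (Fin a), ((Equiv.Perm.sign τ : ℤ) : ℂ) •
        ∑ e : Equiv.Perm (Fin a), fun p => ∏ i, eval (p i)
          (∑ π : Equiv.Perm (Fin (b + 2)), C (dotF (Pi.single (σ i) 1) (v (e i) (π 0))) *
            (C (dotF (Pi.single (τ i) 1) (v (e i) (π (Fin.succ 0)))) *
              ∏ j : Fin b, T4.linP (v (e i) (π j.succ.succ)))) := by
      funext p
      simp only [ctr', LinearMap.pi_apply, LinearMap.sum_apply, LinearMap.smul_apply,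
        Finset.sum_apply, Pi.smul_apply]
      apply Finset.sum_congr rfl
      intro σ _
      congr 1
      apply Finset.sum_congr rfl
      intro τ _
      congr 1
      rw [symEval_tprod]
      apply Finset.sum_congr rfl
      intro e _
      apply Finset.prod_congr rfl
      intro i _
      rw [symEval_tprod, map_sum]
      apply Finset.sum_congr rfl
      intro π _
      rw [prod_arr, map_mul, map_mul, eval_C, eval_C, map_prod]
      simp only [eval_linP]
    rw [h1]
    refine Submodule.sum_mem _ fun σ _ => Submodule.smul_mem _ _ ?_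
    refine Submodule.sum_mem _ fun τ _ => Submodule.smul_mem _ _ ?_
    refine Submodule.sum_mem _ fun e _ => ?_
    refine Submodule.subset_span ⟨_, fun i => ?_, rfl⟩
    refine IsHomogeneous.sum _ _ _ fun π _ => ?_
    have h2 := (isHomogeneous_C (Fin a) (dotF (Pi.single (σ i) 1) (v (e i) (π 0)))).mul
      ((isHomogeneous_C (Fin a) (dotF (Pi.single (τ i) 1) (v (e i) (π (Fin.succ 0))))).mul
        (prod_linP_hom (fun j : Fin b => v (e i) (π j.succ.succ))))
    simpa using h2
  have h1 : f x = 0 := by rw [hf]; rfl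
  change Submodule.mkQ (MP a a b) (ctr' a b x) = 0 at h1
  rwa [Submodule.mkQ_apply, Submodule.Quotient.mk_eq_zero] at h1

lemma ctr'_perm (x : Sym[ℂ]^a (Sym[ℂ]^(b + 2) (Fin a → ℂ))) (ρ : Equiv.Perm (Fin a))
    (p : Fin a → Fin a → ℂ) : ctr' a b x (fun j => p (ρ j)) = ctr' a b x p := by
  have hT : ∀ σ τ : Equiv.Perm (Fin a),
      TT (b := b) x (fun j => p (ρ j)) (fun i => Pi.single ((σ * ρ) i) 1)
        (fun i => Pi.single ((τ * ρ) i) 1) =
      TT (b := b) x p (fun i => Pi.single (σ i) 1) (fun i => Pi.single (τ i) 1) := by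
    intro σ τ
    exact symEval_perm (fun i => symEval (arr b (p i) (Pi.single (σ i) 1) (Pi.single (τ i) 1))) ρ
      (x : Sym[ℂ]^a (Sym[ℂ]^(b + 2) (Fin a → ℂ)))
  rw [ctr'_apply, ctr'_apply, ← Equiv.sum_comp (Equiv.mulRight ρ)]
  apply Finset.sum_congr rfl
  intro σ _
  rw [← Equiv.sum_comp (Equiv.mulRight ρ), Finset.mul_sum, Finset.mul_sum]
  apply Finset.sum_congr rfl
  intro τ _
  simp only [Equiv.coe_mulRight]
  rw [hT, map_mul, map_mul]
  push_cast [Units.val_mul]
  have h := sign_sq ρ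
  linear_combination ((Equiv.Perm.sign σ : ℤ) : ℂ) * ((Equiv.Perm.sign τ : ℤ) : ℂ) *
    (TT (b := b) x p (fun i => Pi.single (σ i) 1) (fun i => Pi.single (τ i) 1)) * h

lemma ctr'_act (x : Sym[ℂ]^a (Sym[ℂ]^(b + 2) (Fin a → ℂ))) (g : Matrix (Fin a) (Fin a) ℂ)
    (p : Fin a → Fin a → ℂ) :
    ctr' a b (symMap a (symMap (b + 2) (Matrix.toLin' g)) x) p =
      g.det ^ 2 * ctr' a b x (fun j => Matrix.vecMul (p j) g) := by
  have h1 : ∀ σ τ : Equiv.Perm (Fin a),
      TT (b := b) (symMap a (symMap (b + 2) (Matrix.toLin' g)) x) p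
        (fun i => Pi.single (σ i) 1) (fun i => Pi.single (τ i) 1) =
      TT (b := b) x (fun j => Matrix.vecMul (p j) g) (fun i => (fun k => g k) (σ i))
        (fun i => (fun k => g k) (τ i)) := by
    intro σ τ
    rw [TT_act]
    congr 1
    · funext i
      exact Matrix.single_one_vecMul _ _
    · funext i
      exact Matrix.single_one_vecMul _ _
  have h2 : (Matrix.of fun k => g k) = g := rfl
  rw [ctr'_apply, ctr'_apply]
  have h3 : ∀ σ : Equiv.Perm (Fin a), ∑ τ : Equiv.Perm (Fin a), ((Equiv.Perm.sign τ : ℤ) : ℂ) *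
      TT (b := b) (symMap a (symMap (b + 2) (Matrix.toLin' g)) x) p (fun i => Pi.single (σ i) 1)
        (fun i => Pi.single (τ i) 1) =
      g.det * ∑ τ : Equiv.Perm (Fin a), ((Equiv.Perm.sign τ : ℤ) : ℂ) *
        TT (b := b) x (fun j => Matrix.vecMul (p j) g) (fun i => (fun k => g k) (σ i))
          (fun i => Pi.single (τ i) 1) := by
    intro σ
    have h4 := TT_w (b := b) x (fun j => Matrix.vecMul (p j) g) (fun i => (fun k => g k) (σ i))
      (fun k => g k)
    rw [h2] at h4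
    rw [← h4]
    exact Finset.sum_congr rfl fun τ _ => congrArg _ (h1 σ τ)
  rw [Finset.sum_congr rfl (fun σ _ => congrArg _ (h3 σ))]
  have h5 : ∀ σ : Equiv.Perm (Fin a), ((Equiv.Perm.sign σ : ℤ) : ℂ) * (g.det *
      ∑ τ : Equiv.Perm (Fin a), ((Equiv.Perm.sign τ : ℤ) : ℂ) *
        TT (b := b) x (fun j => Matrix.vecMul (p j) g) (fun i => (fun k => g k) (σ i))
          (fun i => Pi.single (τ i) 1)) =
      g.det * ∑ τ : Equiv.Perm (Fin a), ((Equiv.Perm.sign τ : ℤ) : ℂ) *
        (((Equiv.Perm.sign σ : ℤ) : ℂ) *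
        TT (b := b) x (fun j => Matrix.vecMul (p j) g) (fun i => (fun k => g k) (σ i))
          (fun i => Pi.single (τ i) 1)) := by
    intro σ
    rw [mul_left_comm, Finset.mul_sum]
    congr 1
    exact Finset.sum_congr rfl fun τ _ => by ring
  rw [Finset.sum_congr rfl (fun σ _ => h5 σ), ← Finset.mul_sum, Finset.sum_comm]
  have h6 : ∀ τ : Equiv.Perm (Fin a), ∑ σ : Equiv.Perm (Fin a), ((Equiv.Perm.sign τ : ℤ) : ℂ) *
        (((Equiv.Perm.sign σ : ℤ) : ℂ) *
        TT (b := b) x (fun j => Matrix.vecMul (p j) g) (fun i => (fun k => g k) (σ i))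
          (fun i => Pi.single (τ i) 1)) =
      g.det * ∑ σ : Equiv.Perm (Fin a), ((Equiv.Perm.sign σ : ℤ) : ℂ) *
        (((Equiv.Perm.sign τ : ℤ) : ℂ) *
        TT (b := b) x (fun j => Matrix.vecMul (p j) g) (fun i => Pi.single (σ i) 1)
          (fun i => Pi.single (τ i) 1)) := by
    intro τ
    have h4 := TT_u (b := b) x (fun j => Matrix.vecMul (p j) g) (fun i => Pi.single (τ i) 1)
      (fun k => g k)
    rw [h2] at h4
    rw [← Finset.mul_sum, h4, mul_left_comm, Finset.mul_sum]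
    congr 1
    exact Finset.sum_congr rfl fun σ _ => by ring
  rw [Finset.sum_congr rfl (fun τ _ => h6 τ), ← Finset.mul_sum, Finset.sum_comm, ← mul_assoc,
    ← pow_two]
  congr 1
  apply Finset.sum_congr rfl
  intro σ _
  rw [Finset.mul_sum]

lemma det_borel {g : Matrix (Fin a) (Fin a) ℂ} (hg : IsBorel g) : g.det = ∏ i, g i i :=
  Matrix.det_of_upperTriangular (fun _ _ hij => hg.1 _ _ hij)

lemma ctr_hwf {lam : Fin a → ℕ} (hlam : ∀ i, 2 ≤ lam i) {x : Pleth a (b + 2) a}
    (hx : x ∈ hwSpace lam (plethAct a (b + 2) a)) :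
    HWF a a (fun i => lam i - 2) (ctr a b x) := by
  intro g hg p
  have h1 : ctr a b (plethAct a (b + 2) a g x) p =
      g.det ^ 2 * ctr a b x (fun j => Matrix.vecMul (p j) g) := ctr'_act x g p
  rw [hx g hg, map_smul, Pi.smul_apply, smul_eq_mul, det_borel hg] at h1
  have h2 : ∏ i, g i i ≠ 0 := Finset.prod_ne_zero_iff.2 fun i _ => hg.2 i
  have h3 : ∏ i, g i i ^ lam i = (∏ i, g i i) ^ 2 * ∏ i, g i i ^ (lam i - 2) := by
    rw [← Finset.prod_pow, ← Finset.prod_mul_distrib]
    apply Finset.prod_congr rfl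
    intro i _
    rw [← pow_add]
    congr 1
    have := hlam i
    omega
  rw [h3, mul_assoc] at h1
  exact (mul_left_cancel₀ (pow_ne_zero 2 h2) h1).symm

end Vale.Agent.P181.H385
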