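import Vale.Agent.P181.H385.Defs
import Vale.Agent.P181.H385.Lhs3
import Vale.Agent.P181.H23.Blk
import Vale.Agent.P181.H248.RhsMul

set_option autoImplicit false

/-!
# P181: rectangles and the translation principle
-/

namespace Vale.Agent.P181.H385

open Vale.Agent.P181 Vale.Agent.P181.H280

/-- The invariant `det ^ c` on the left. -/
theorem rectL (a c : ℕ) (hc : Even c) : 1 ≤ plethMult a c a (fun _ => c) := by
  classical
  refine H23.blk (P := Fin a) (I := Fin c) (Fintype.card_fin a) (Fintype.card_fin c)
    (fun _ i => i) (fun _ => Function.injective_id) ?_ ?_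
  · intro x
    simp
  · intro t _
    rw [Finset.prod_const]
    rw [Finset.card_univ, Fintype.card_fin]
    exact hc.pow_nonneg _
end Vale.Agent.P181.H385
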