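import Vale.Agent.P181.H385.TallU

set_option autoImplicit false

/-!
# P181: tall shapes, the rounded form
-/

namespace Vale.Agent.P181.H385

open Vale.Agent.P181 Vale.Agent.P181.H280

/-- Foulkes' inequality for all `3 ≤ a ≤ b` and all `lam` with `lam_a ≥ 2 a + C (1 + log a) ^ c`. -/
def TallPoly : Prop := ∃ (C : ℝ) (c : ℕ), ∀ (a b n : ℕ) (lam : Fin n → ℕ), 3 ≤ a → a ≤ b →
  a ≤ n → (∀ i : Fin n, (i : ℕ) < a → 2 * (a : ℝ) + C * (1 + Real.log a) ^ c ≤ (lam i : ℝ)) →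
  plethMult a b n lam ≤ plethMult b a n lam

theorem tallPoly_of (h : TallU) : TallPoly := by
  obtain ⟨C, c, h⟩ := h
  refine ⟨C, c, fun a b n lam ha hab han h1 => h a b n lam ha hab han fun i hi => ?_⟩
  refine le_trans ?_ (h1 i hi)
  have h2 : ((a + b % a : ℕ) : ℝ) ≤ 2 * (a : ℝ) := by
    have h3 : b % a < a := Nat.mod_lt _ (by omega)
    have h4 : a + b % a ≤ 2 * a := by omega
    exact_mod_cast h4
  have h5 := min_le_right ((2 * (b / a) : ℕ) : ℝ) (C * (1 + Real.log a) ^ c)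
  linarith

end Vale.Agent.P181.H385
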