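import Vale.Agent.P181.H385.ColAdd
import Vale.Agent.P181.H869.TallAll
import Vale.Agent.P181.H662.Pad

set_option autoImplicit false

/-!
# P181: tall shapes, no relation between `a` and `b`
-/

namespace Vale.Agent.P181.H385

open Vale.Agent.P181 Vale.Agent.P181.H280

/-- The uniform tall theorem without upper bound. -/
def UniformR : Prop := ∀ (a b n : ℕ) (lam : Fin n → ℕ), 3 ≤ a → a ≤ b → a ≤ n →
  (∀ i : Fin n, (i : ℕ) < a → b + 2 ≤ lam i + a) →
    plethMult a b n lam ≤ plethMult b a n lam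

/-- The separating columns with `r = 2`. -/
def Sep2 : Prop := ∀ (a b : ℕ) (lam : Fin a → ℕ), 3 ≤ a → 2 * a ≤ b → b % a ≤ 1 →
  (∀ i, (b / a) * 2 ≤ lam i) → plethMult a b a lam ≤ plethMult b a a lam

/-- All degrees of invariants. -/
def InvAll : Prop := ∀ a c : ℕ, 3 ≤ a → a ≤ c → Even c → 1 ≤ plethMult c a a (fun _ => c)

theorem invAll_of (hR : UniformR) : InvAll := fun a c ha hac hc =>
  (rectL a c hc).trans (hR a c a (fun _ => c) ha hac le_rfl (fun i _ => by omega))

/-- The translation principle for every even `c ≥ a`. -/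
def Translate : Prop := ∀ (a b c n : ℕ) (lam : Fin n → ℕ), 3 ≤ a → a ≤ n → Even c → a ≤ c →
  plethMult a b n lam ≤ plethMult b a n lam →
  plethMult a (b + c) n (fun i => lam i + if (i : ℕ) < a then c else 0) ≤
    plethMult (b + c) a n (fun i => lam i + if (i : ℕ) < a then c else 0)

theorem translate_of (hR : UniformR) : Translate := fun a b c n lam ha han hc hac h =>
  colAdd a b c n lam (by omega) han hc (invAll_of hR a c ha hac hc) h

theorem res3 {a t r : ℕ} (ht : 2 ≤ t) (hr : 2 ≤ r) :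
    ∃ c q e : ℕ, Even c ∧ a ≤ c ∧ c + e = a + r ∧ 1 ≤ q ∧ q + 1 = t ∧ e ≤ 1 ∧
      a * t + r = q * a + e + c := by
  obtain ⟨s, rfl⟩ : ∃ s, t = s + 1 := ⟨t - 1, by omega⟩
  rcases Nat.even_or_odd (a + r) with he | ho
  · exact ⟨a + r, s, 0, he, by omega, by omega, by omega, rfl, by omega, by ring⟩
  · obtain ⟨m, hm⟩ := ho
    refine ⟨2 * m, s, 1, even_two_mul m, by omega, by omega, by omega, rfl, le_rfl, ?_⟩
    have e : a * (s + 1) + r = s * a + (a + r) := by ring
    rw [e, hm]
    ring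

/-- `a` rows. -/
theorem tallN_self (hR : UniformR) (hS : Sep2) {a b : ℕ} (ha : 3 ≤ a) (hab : a ≤ b)
    (mu : Fin a → ℕ) (h1 : ∀ i, a + b % a + 2 * (b / a) ≤ mu i) :
    plethMult a b a mu ≤ plethMult b a a mu := by
  have hI := invAll_of hR
  have h0 : a * (b / a) + b % a = b := Nat.div_add_mod b a
  have hra : b % a < a := Nat.mod_lt _ (by omega)
  have ht1 : 1 ≤ b / a := (Nat.one_le_div_iff (by omega)).2 hab
  rcases Nat.lt_or_ge (b / a) 2 with ht | ht
  · have ht' : b / a = 1 := by omega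
    rw [ht', mul_one] at h0
    refine hR a b a mu ha hab le_rfl (fun i _ => ?_)
    have := h1 i
    rw [ht'] at this
    omega
  have hb2 : 2 * a ≤ b := by
    have : a * 2 ≤ a * (b / a) := Nat.mul_le_mul_left _ ht
    omega
  rcases Nat.lt_or_ge (b % a) 2 with hr | hr
  · exact hS a b mu ha hb2 (by omega) (fun i => by have := h1 i; omega)
  obtain ⟨c, q, e, hce, hac, hcr, hq, hqt, he, hb⟩ := res3 ht hr
  rw [h0] at hb
  have hstart : plethMult a (q * a + e) a (fun i => mu i - c) ≤
      plethMult (q * a + e) a a (fun i => mu i - c) := by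
    rcases Nat.eq_zero_or_pos e with rfl | he0
    · exact H869.mult_case (by omega) hq _ (fun i => by
        have := h1 i
        show 2 * q ≤ mu i - c + 3
        omega)
    · obtain rfl : e = 1 := by omega
      rcases Nat.lt_or_ge q 2 with hq2 | hq2
      · obtain rfl : q = 1 := by omega
        refine hR a (1 * a + 1) a _ ha (by omega) le_rfl (fun i _ => ?_)
        have := h1 i
        show 1 * a + 1 + 2 ≤ mu i - c + a
        omega
      · have hm : (q * a + 1) % a = 1 := by
          rw [Nat.add_comm, Nat.add_mul_mod_self_right]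
          exact Nat.mod_eq_of_lt (by omega)
        have hd : (q * a + 1) / a = q := by
          rw [mul_comm, Nat.mul_add_div (by omega), Nat.div_eq_of_lt (by omega), add_zero]
        refine hS a (q * a + 1) _ ha ?_ (by rw [hm]) (fun i => ?_)
        · have : 2 * a ≤ q * a := Nat.mul_le_mul_right _ hq2
          omega
        · rw [hd]
          have := h1 i
          show q * 2 ≤ mu i - c
          omega
  have key := translate a (q * a + e) c (fun i => mu i - c) (by omega) hce (hI a c ha hac hce)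
    hstart
  have e1 : (fun i => mu i - c + c) = mu := by
    funext i
    have := h1 i
    omega
  simp only [e1] at key
  rw [← hb] at key
  exact key

/-- **Tall shapes, the explicit form.** -/
theorem tallN (hR : UniformR) (hS : Sep2) (a b n : ℕ) (lam : Fin n → ℕ) (ha : 3 ≤ a)
    (hab : a ≤ b) (han : a ≤ n)
    (h1 : ∀ i : Fin n, (i : ℕ) < a → a + b % a + 2 * (b / a) ≤ lam i) :
    plethMult a b n lam ≤ plethMult b a n lam :=
  H662.tall_pad a b _ (fun mu hmu => tallN_self hR hS ha hab mu hmu) n han lam h1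

/-- **Tall shapes, no relation between `a` and `b`.** -/
def TallU : Prop := ∃ (C : ℝ) (c : ℕ), ∀ (a b n : ℕ) (lam : Fin n → ℕ), 3 ≤ a → a ≤ b → a ≤ n →
  (∀ i : Fin n, (i : ℕ) < a → ((a + b % a : ℕ) : ℝ) +
    min ((2 * (b / a) : ℕ) : ℝ) (C * (1 + Real.log a) ^ c) ≤ (lam i : ℝ)) →
  plethMult a b n lam ≤ plethMult b a n lam

theorem tallU_of (hR : UniformR) (hS : Sep2)
    (hP : ∃ (C : ℝ) (c : ℕ), 0 < C ∧ ∀ a b : ℕ, C * a * (1 + Real.log a) ^ c ≤ b →
      ∀ (n : ℕ) (lam : Fin n → ℕ), plethMult a b n lam ≤ plethMult b a n lam) : TallU := by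
  obtain ⟨C, c, hC, hP⟩ := hP
  refine ⟨2 * C, c, fun a b n lam ha hab han h1 => ?_⟩
  by_cases hb : C * a * (1 + Real.log a) ^ c ≤ b
  · exact hP a b hb n lam
  rw [not_le] at hb
  have ha0 : (0 : ℝ) < a := by
    have : 0 < a := by omega
    exact_mod_cast this
  have h2 : ((b / a : ℕ) : ℝ) ≤ C * (1 + Real.log a) ^ c := by
    have h3 : ((b / a : ℕ) : ℝ) ≤ (b : ℝ) / a := Nat.cast_div_le
    refine h3.trans ?_
    rw [div_le_iff₀ ha0]
    calc (b : ℝ) ≤ C * a * (1 + Real.log a) ^ c := hb.le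
      _ = C * (1 + Real.log a) ^ c * a := by ring
  have h4 : min ((2 * (b / a) : ℕ) : ℝ) (2 * C * (1 + Real.log a) ^ c) =
      ((2 * (b / a) : ℕ) : ℝ) := by
    refine min_eq_left ?_
    push_cast
    have : (2 : ℝ) * ((b / a : ℕ) : ℝ) ≤ 2 * (C * (1 + Real.log a) ^ c) := by linarith
    calc (2 : ℝ) * ((b / a : ℕ) : ℝ) ≤ 2 * (C * (1 + Real.log a) ^ c) := this
      _ = 2 * C * (1 + Real.log a) ^ c := by ring
  rw [h4] at h1
  refine tallN hR hS a b n lam ha hab han (fun i hi => ?_)
  have h5 := h1 i hi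
  exact_mod_cast h5

end Vale.Agent.P181.H385
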