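import Vale.Agent.P181.H385.TallU
import Vale.Agent.P181.H605.AllTall
import Vale.Agent.P181.SEP.Main
import Vale.Agent.P181.SEP.H605.Fin
import Vale.Agent.P181.SEP.H964.Sign
import Vale.Agent.P181.SEP.H869.Peel

set_option autoImplicit false

/-!
# P181: tall shapes, the inputs
-/

namespace Vale.Agent.P181.H385

open Vale.Agent.P181 Vale.Agent.P181.H280

theorem uniformR : UniformR := fun a b n lam ha hab han h => H605.tall a b n ha hab han lam h

/-- Separating columns, no hypothesis. -/
theorem sepFin : SEP.FinStmt := SEP.H605.fin (SEP.sepForm SEP.H964.sign SEP.H869.peel)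

theorem sep2 : Sep2 := by
  intro a b lam ha hab hk h
  have ht : 2 ≤ b / a := (Nat.le_div_iff_mul_le (by omega)).2 hab
  refine sepFin a b a 2 (by omega) (by omega) le_rfl lam (by omega) (by omega)
    (Or.inl even_two) ?_ (fun i _ => h i)
  have h1 : 2 * (a - 2) ≤ (b / a) * (a - 2) := Nat.mul_le_mul_right _ ht
  omega

theorem translation : Translate := translate_of uniformR

/-- **Tall shapes, explicit**: `lam_a ≥ a + (b mod a) + 2 [b / a]`. -/
theorem tallExplicit (a b n : ℕ) (lam : Fin n → ℕ) (ha : 3 ≤ a)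
    (hab : a ≤ b) (han : a ≤ n)
    (h1 : ∀ i : Fin n, (i : ℕ) < a → a + b % a + 2 * (b / a) ≤ lam i) :
    plethMult a b n lam ≤ plethMult b a n lam :=
  tallN uniformR sep2 a b n lam ha hab han h1

end Vale.Agent.P181.H385
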