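import Vale.Agent.P181.H385.TallUF
import Vale.Agent.P181.H385.TallPoly
import Vale.Agent.P181.PLX.Main

set_option autoImplicit false

/-!
# P181: tall shapes, final form
-/

namespace Vale.Agent.P181.H385

/-- **Tall shapes**: for all `3 ≤ a ≤ b` and all `lam` with
`lam_a ≥ a + (b mod a) + min (2 [b / a]) (C (1 + log a) ^ c)`. -/
theorem tallU : TallU := tallU_of uniformR sep2 Vale.Agent.P181.PLX.polyS

/-- **Tall shapes**: for all `3 ≤ a ≤ b` and all `lam` with `lam_a ≥ 2 a + C (1 + log a) ^ c`. -/
theorem tallPoly : TallPoly := tallPoly_of tallU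

end Vale.Agent.P181.H385
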